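import Vale.Agent.P344.Defs

namespace Vale.Agent.P344

/-- The infimum over all lengths `m ≥ 2` of `(L(m) + m) / (m log m)`. -/
noncomputable def cStar : ℝ :=
  ⨅ m : ℕ, ((L (m + 2) : ℝ) + (m + 2)) / ((m + 2) * Real.logb 2 (m + 2))

/-- The question: there is `c > 0` with `L(n) ≥ c n log n` for all sufficiently large `n`. -/
def Question : Prop :=
  ∃ c : ℝ, 0 < c ∧ ∀ᶠ n : ℕ in Filter.atTop, c * (n * Real.logb 2 n) ≤ (L n : ℝ)

end Vale.Agent.P344
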