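import Vale.Agent.P344.Defs

namespace Vale.Agent.P344

/-- Depth of the value computed by a gate, from the depths of the values computed so far. -/
def Gate.depth : Gate → List ℕ → ℕ
  | Gate.add i j, d => max (d.getD i 0) (d.getD j 0) + 1
  | Gate.sub i j, d => max (d.getD i 0) (d.getD j 0) + 1
  | Gate.smul _ i, d => d.getD i 0 + 1

/-- Depths of all computed values. -/
def depths : List Gate → List ℕ → List ℕ
  | [], d => d
  | g :: P, d => depths P (d ++ [g.depth d])

/-- A circuit on `n` inputs all of whose coefficients have modulus at most `K` and whose depth is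
at most `K log n`. -/
def Tame (K : ℝ) (n : ℕ) (P : List Gate) : Prop :=
  (∀ (a : ℂ) (i : ℕ), Gate.smul a i ∈ P → ‖a‖ ≤ K) ∧
    ∀ d ∈ depths P (List.replicate n 0), (d : ℝ) ≤ K * Real.logb 2 n

end Vale.Agent.P344
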